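import Vale.Agent.P305C.Vt

/-!
# The dynamic minimum ratio cycle engine: items, levels, and the two outer interfaces

* `BuildOK`: the static construction of one level;
* `MrcOK`: the dynamic data structure, as it is used by the interior point method.
-/

namespace Vale.Agent.P305P

open Vale.Agent.P305E Vale.Agent.P305C

/-- A signed reference to an item (`true`: forwards). -/
abbrev SR := ℕ × Bool

/-- An edge-like object: ends, length, gradient and constituents (none for a real edge). -/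
structure Item where
  a : ℕ
  b : ℕ
  len : ℕ
  g : ℤ
  cs : List SR

instance : Inhabited Item := ⟨⟨0, 0, 1, 0, []⟩⟩

/-- Encoding. -/
def Item.enc (z : Item) : ℕ × ℕ × ℕ × ℤ × List SR := (z.a, z.b, z.len, z.g, z.cs)

instance : Rep Item := Rep.comap Item.enc

@[fun_prop] theorem Item.p_a : Pure Item.a :=
  Pure.of_comap Item.enc (h := fun p => p.1) (by fun_prop)
@[fun_prop] theorem Item.p_b : Pure Item.b :=
  Pure.of_comap Item.enc (h := fun p => p.2.1) (by fun_prop)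
@[fun_prop] theorem Item.p_len : Pure Item.len :=
  Pure.of_comap Item.enc (h := fun p => p.2.2.1) (by fun_prop)
@[fun_prop] theorem Item.p_g : Pure Item.g :=
  Pure.of_comap Item.enc (h := fun p => p.2.2.2.1) (by fun_prop)
@[fun_prop] theorem Item.p_cs : Pure Item.cs :=
  Pure.of_comap Item.enc (h := fun p => p.2.2.2.2) (by fun_prop)
@[fun_prop] theorem Item.p_mk {α : Type} [Rep α] {a b l : α → ℕ} {g : α → ℤ} {c : α → List SR}
    (h1 : Pure a) (h2 : Pure b) (h3 : Pure l) (h4 : Pure g) (h5 : Pure c) :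
    Pure fun x => Item.mk (a x) (b x) (l x) (g x) (c x) :=
  Pure.to_comap Item.enc (by unfold Item.enc; fun_prop)

section walks
variable (I : ℕ → Item)

/-- The sign of a reference. -/
def sg (r : SR) : ℤ := if r.2 = true then 1 else -1

/-- The opposite reference. -/
def fl (r : SR) : SR := (r.1, !r.2)

/-- The start of a reference. -/
def src (r : SR) : ℕ := if r.2 = true then (I r.1).a else (I r.1).b

/-- The end of a reference. -/
def tgt (r : SR) : ℕ := if r.2 = true then (I r.1).b else (I r.1).a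

/-- The walk backwards. -/
def rev (W : List SR) : List SR := (W.map fl).reverse

/-- The items of a walk. -/
def its (W : List SR) : List ℕ := W.map Prod.fst

/-- `W` is a walk from `u` to `v`. -/
def Walk : ℕ → List SR → ℕ → Prop
  | u, [], v => u = v
  | u, r :: W, v => src I r = u ∧ Walk (tgt I r) W v

/-- The gradient along a walk. -/
def gW (W : List SR) : ℤ := (W.map fun r => sg r * (I r.1).g).sum

/-- The length of a walk. -/
def lenW (W : List SR) : ℕ := (W.map fun r => (I r.1).len).sum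

/-- The total length of a list of items. -/
def lenL (G : List ℕ) : ℕ := (G.map fun z => (I z).len).sum

/-- The item `z` is the contraction of a nonempty walk. -/
structure WF (z : ℕ) : Prop where
  ne : (I z).cs ≠ []
  walk : Walk I (I z).a (I z).cs (I z).b
  g : (I z).g = gW I (I z).cs
  len : (I z).len = lenW I (I z).cs

/-- The potential `φ` explains the gradient of `z` up to `κ` times the length. -/
def Cons (κ : ℝ) (φ : ℕ → ℝ) (z : ℕ) : Prop :=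
  |((I z).g : ℝ) - (φ (I z).b - φ (I z).a)| ≤ κ * (I z).len

end walks

/-! ### One level -/

/-- The static data of a level: clusters of a vertex, parents of an item, emitted items and touched
vertices of a trigger (an item or a cluster), the new items, the core graph and the candidates. -/
structure Lvl where
  cl : Arr (List ℕ)
  par : Arr (List ℕ)
  em : Arr (List ℕ)
  tl : Arr (List ℕ)
  Pt : List ℕ
  K : List ℕ
  cand : List (List SR)

/-- Encoding. -/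
def Lvl.enc (L : Lvl) : Arr (List ℕ) × Arr (List ℕ) × Arr (List ℕ) × Arr (List ℕ) × List ℕ ×
    List ℕ × List (List SR) := (L.cl, L.par, L.em, L.tl, L.Pt, L.K, L.cand)

instance : Rep Lvl := Rep.comap Lvl.enc

@[fun_prop] theorem Lvl.p_cl : Pure Lvl.cl :=
  Pure.of_comap Lvl.enc (h := fun p => p.1) (by fun_prop)
@[fun_prop] theorem Lvl.p_par : Pure Lvl.par :=
  Pure.of_comap Lvl.enc (h := fun p => p.2.1) (by fun_prop)
@[fun_prop] theorem Lvl.p_em : Pure Lvl.em :=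
  Pure.of_comap Lvl.enc (h := fun p => p.2.2.1) (by fun_prop)
@[fun_prop] theorem Lvl.p_tl : Pure Lvl.tl :=
  Pure.of_comap Lvl.enc (h := fun p => p.2.2.2.1) (by fun_prop)
@[fun_prop] theorem Lvl.p_Pt : Pure Lvl.Pt :=
  Pure.of_comap Lvl.enc (h := fun p => p.2.2.2.2.1) (by fun_prop)
@[fun_prop] theorem Lvl.p_K : Pure Lvl.K :=
  Pure.of_comap Lvl.enc (h := fun p => p.2.2.2.2.2.1) (by fun_prop)
@[fun_prop] theorem Lvl.p_cand : Pure Lvl.cand :=
  Pure.of_comap Lvl.enc (h := fun p => p.2.2.2.2.2.2) (by fun_prop)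
@[fun_prop] theorem Lvl.p_mk {α : Type} [Rep α] {a1 a2 a3 a4 : α → Arr (List ℕ)}
    {a5 a6 : α → List ℕ} {a7 : α → List (List SR)} (h1 : Pure a1) (h2 : Pure a2) (h3 : Pure a3)
    (h4 : Pure a4) (h5 : Pure a5) (h6 : Pure a6) (h7 : Pure a7) :
    Pure fun x => Lvl.mk (a1 x) (a2 x) (a3 x) (a4 x) (a5 x) (a6 x) (a7 x) :=
  Pure.to_comap Lvl.enc (by unfold Lvl.enc; fun_prop)

/-- The lifting property of a level. `Bad` marks invalid items and broken clusters, `φ'` is the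
potential of the next level, `ψ j` that of level `j`, and the emission of the trigger `τ` has
arrived at the level `l τ`. -/
def Lift (γ kq : ℕ) (I : ℕ → Item) (G : List ℕ) (L : Lvl) : Prop :=
  ∀ (Bad : ℕ → Prop) (φ' : ℕ → ℝ) (ψ : ℕ → ℕ → ℝ) (l : ℕ → ℕ) (κ : ℝ),
    (∀ z ∈ G, Bad z → ∀ C, C ∈ L.cl.get (I z).a ∨ C ∈ L.cl.get (I z).b → Bad C) →
    (∀ z ∈ L.K, ¬ Bad z → Cons I κ φ' z) →
    (∀ τ, Bad τ → ∀ z ∈ L.em.get τ, ¬ Bad z → Cons I κ (ψ (l τ)) z) →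
    (∀ τ τ', Bad τ → Bad τ' → l τ' ≤ l τ → ∀ y ∈ L.tl.get τ, ψ (l τ') y = φ' y) →
    (∀ c ∈ L.cand, ∃ r ∈ c, Bad r.1) → 1 ≤ κ * kq →
    ∃ φ : ℕ → ℝ, (∀ z ∈ G, ¬ Bad z → Cons I (γ * κ) φ z) ∧
      ∀ y, (∀ C ∈ L.cl.get y, Bad C) → φ y = φ' y

/-- A level over the graph `G` whose new items and clusters have names in `[lo, hi)`.
`γ` is the small factor (it compounds over the levels), `P` and `E` are large factors. -/
structure LvlOK (γ P E kq a : ℕ) (I : ℕ → Item) (G : List ℕ) (lo hi : ℕ) (L : Lvl) : Prop where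
  pt_nodup : L.Pt.Nodup
  pt_rng : ∀ p ∈ L.Pt, lo ≤ p ∧ p < hi
  pt_wf : ∀ p ∈ L.Pt, WF I p
  pt_cs : ∀ p ∈ L.Pt, (∀ z ∈ its (I p).cs, z ∈ G) ∧ (I p).cs.length ≤ P
  pt_len : lenL I L.Pt ≤ γ * lenL I G
  mult : ∀ z, (L.Pt.map fun p => (its (I p).cs).count z).sum ≤ γ
  par_mem : ∀ z p, p ∈ L.par.get z ↔ p ∈ L.Pt ∧ z ∈ its (I p).cs
  par_le : ∀ z, (L.par.get z).length ≤ γ
  cl_rng : ∀ y, ∀ C ∈ L.cl.get y, lo ≤ C ∧ C < hi ∧ C ∉ L.Pt
  cl_le : ∀ y, (L.cl.get y).length ≤ γ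
  em_mem : ∀ τ, ∀ z ∈ L.em.get τ, (z ∈ G ∨ z ∈ L.Pt) ∧ (τ ∈ G ∨ lo ≤ τ ∧ τ < hi)
  em_le : ∀ τ, (L.em.get τ).length ≤ E
  tl_mem : ∀ τ, ∀ y ∈ L.tl.get τ, τ ∈ G ∨ lo ≤ τ ∧ τ < hi
  tl_le : ∀ τ, (L.tl.get τ).length ≤ γ
  tl_ends : ∀ p ∈ L.Pt, (I p).a ∈ L.tl.get p ∧ (I p).b ∈ L.tl.get p
  k_mem : ∀ z ∈ L.K, z ∈ G ∨ z ∈ L.Pt
  k_le : L.K.length * 2 ^ a ≤ γ * (G.length + 1)
  cand_walk : ∀ c ∈ L.cand, ∃ v, Walk I v c v
  cand_mem : ∀ c ∈ L.cand, (∀ z ∈ its c, z ∈ G ∨ z ∈ L.Pt) ∧ c.length ≤ P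
  cand_good : ∀ c ∈ L.cand, (lenW I c : ℤ) < kq * -gW I c
  cand_le : L.cand.length ≤ P * (G.length + 1)
  lift : Lift γ kq I G L

/-- About the fourth root. -/
def rt (b : ℕ) : ℕ := Nat.sqrt (Nat.sqrt b) + 1

/-- Small factors: `2 ^ O(b ^ (1/4) log b)`. -/
def sm (c b : ℕ) : ℕ := 2 ^ (c * rt b * lg b)

/-- Large factors: `2 ^ O(a + b ^ (3/4) log b)`. -/
def bg (c a b : ℕ) : ℕ := 2 ^ (c * (a + rt b ^ 3 * lg b))

/-- The largest factors: `2 ^ O(a b ^ (1/4) + b ^ (3/4) log b)`. -/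
def hg (c a b : ℕ) : ℕ := 2 ^ (c * (a * rt b + rt b ^ 3 * lg b))

/-- The input of a level: distinct items with names below `cnt` and numbers at most `2 ^ b`. -/
structure GOK (b : ℕ) (I : ℕ → Item) (cnt : ℕ) (G : List ℕ) : Prop where
  nodup : G.Nodup
  lt : ∀ z ∈ G, z < cnt
  pos : ∀ z ∈ G, 1 ≤ (I z).len
  ends : ∀ z ∈ G, (I z).a ≤ 2 ^ b ∧ (I z).b ≤ 2 ^ b
  g : ∀ z ∈ G, (I z).g.natAbs ≤ 2 ^ b
  len : lenL I G ≤ 2 ^ b
  cnt : cnt ≤ 2 ^ b

/-- `build b a kq I cnt G` returns the new store, the new counter and the level. -/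
structure BuildOK (build : ℕ → ℕ → ℕ → Arr Item → ℕ → List ℕ → M (Arr Item × ℕ × Lvl)) (c : ℕ) :
    Prop where
  impl : Impl fun p : ℕ × ℕ × ℕ × Arr Item × ℕ × List ℕ =>
    build p.1 p.2.1 p.2.2.1 p.2.2.2.1 p.2.2.2.2.1 p.2.2.2.2.2
  spec : ∀ (B b a kq : ℕ) (I : Arr Item) (cnt : ℕ) (G : List ℕ), GOK b I.get cnt G → a ≤ b →
    kq ≤ 2 ^ b → 2 ^ (c * (b + 1)) ≤ B → Vt b B (build b a kq I cnt G) fun o s =>
      (∀ z < cnt, o.1.get z = I.get z) ∧ cnt ≤ o.2.1 ∧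
      LvlOK (sm c b) (bg c a b) (hg c a b) kq a o.1.get G cnt o.2.1 o.2.2 ∧
      o.2.1 + s ≤ cnt + bg c a b * (G.length + 1)

/-- The static half of the engine. -/
def BUILD : Prop := ∃ build c, BuildOK build c

/-! ### The dynamic data structure -/

/-- What the user knows about the state: the live real edges with their data, the flow `X` that
has been pushed through an edge since its insertion, a bound for the mass of unreported flow, the
credit, the number of operations so far, and whether `step` may be called. -/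
structure View where
  live : Finset ℕ
  ed : ℕ → Item
  X : ℕ → ℤ
  mass : ℕ
  pot : ℕ
  used : ℕ
  clean : Prop

/-- The programs; the first argument is always the number `b` of bits. -/
structure Mrc (σ : Type) where
  init : ℕ → ℕ × ℕ × ℕ → M σ
  ins : ℕ → σ → Item → M (σ × ℕ)
  del : ℕ → σ → ℕ → M (σ × ℤ)
  nxt : ℕ → σ → M (σ × Option (ℕ × ℤ))
  step : ℕ → σ → M (σ × Bool)

/-- The edge `r` has been removed. -/
def View.Gone (v v' : View) (r : ℕ) : Prop :=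
  r ∈ v.live ∧ v'.live = v.live.erase r ∧ v'.ed = v.ed ∧ ∀ s ∈ v'.live, v'.X s = v.X s

/-- The specification. The parameters are `p = (q, eta, eps)`: quality of the cycles, mass of a
step, threshold for reports. `I b p s v`: the state `s` has the view `v`. -/
structure MrcOK {σ : Type} [Rep σ] (X : Mrc σ) (c : ℕ) (g : ℕ → ℕ)
    (I : ℕ → ℕ × ℕ × ℕ → σ → View → Prop) : Prop where
  i_init : Impl fun p : ℕ × ℕ × ℕ × ℕ => X.init p.1 p.2
  i_ins : Impl fun p : ℕ × σ × Item => X.ins p.1 p.2.1 p.2.2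
  i_del : Impl fun p : ℕ × σ × ℕ => X.del p.1 p.2.1 p.2.2
  i_nxt : Impl fun p : ℕ × σ => X.nxt p.1 p.2
  i_step : Impl fun p : ℕ × σ => X.step p.1 p.2
  g_grow : Grow g
  sub : ∀ a, Sub fun N => g (a * Nat.size N + a)
  mono : Monotone g
  pos : ∀ b, 1 ≤ g b
  g_le : ∀ b, g b ≤ 2 ^ (c * (b + 1))
  init : ∀ B b q eta eps, 1 ≤ q → 1 ≤ eps → g b * 4 ^ b ≤ eta →
    2 ^ (c * (b + 1)) * (q + eta + eps) ≤ B → Vt b B (X.init b (q, eta, eps)) fun s t =>
      ∃ v, I b (q, eta, eps) s v ∧ v.live = ∅ ∧ v.mass = 0 ∧ v.used = 0 ∧ t + v.pot ≤ g b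
  ins : ∀ B b q eta eps s v (e : Item), I b (q, eta, eps) s v → v.used < 2 ^ b → e.cs = [] →
    e.a ≤ 2 ^ b → e.b ≤ 2 ^ b → 1 ≤ e.len → e.len ≤ 2 ^ b → e.g.natAbs ≤ 2 ^ b →
    2 ^ (c * (b + 1)) * (q + eta + eps) ≤ B → Vt b B (X.ins b s e) fun o t =>
      ∃ v', I b (q, eta, eps) o.1 v' ∧ o.2 ∉ v.live ∧ v'.live = insert o.2 v.live ∧
        v'.ed o.2 = e ∧ v'.X o.2 = 0 ∧ (∀ r ∈ v.live, v'.ed r = v.ed r ∧ v'.X r = v.X r) ∧
        v'.mass ≤ v.mass ∧ v'.used ≤ v.used + 1 ∧ t + v'.pot ≤ v.pot + g b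
  del : ∀ B b q eta eps s v r, I b (q, eta, eps) s v → v.used < 2 ^ b → r ∈ v.live →
    2 ^ (c * (b + 1)) * (q + eta + eps) ≤ B → Vt b B (X.del b s r) fun o t =>
      ∃ v', I b (q, eta, eps) o.1 v' ∧ v.Gone v' r ∧ o.2 = v.X r ∧
        v'.mass ≤ v.mass ∧ v'.used ≤ v.used + 1 ∧ t + v'.pot ≤ v.pot + g b
  nxt : ∀ B b q eta eps s v, I b (q, eta, eps) s v → v.used < 2 ^ b →
    2 ^ (c * (b + 1)) * (q + eta + eps) ≤ B → Vt b B (X.nxt b s) fun o t =>
      ∃ v', I b (q, eta, eps) o.1 v' ∧ v'.used ≤ v.used + 1 ∧ t + v'.pot ≤ v.pot + g b ∧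
        (∀ r x, o.2 = some (r, x) → v.Gone v' r ∧ x = v.X r ∧ v'.mass + eps ≤ v.mass) ∧
        (o.2 = none → v'.clean ∧ v'.live = v.live ∧ v'.ed = v.ed ∧ v'.mass ≤ v.mass ∧
          ∀ r ∈ v.live, v'.X r = v.X r ∧ (v.X r).natAbs * (v.ed r).len ≤ g b * eps)
  step : ∀ B b q eta eps s v, I b (q, eta, eps) s v → v.clean →
    v.used + eta / eps + 1 ≤ 2 ^ b → 2 ^ (c * (b + 1)) * (q + eta + eps) ≤ B →
    Vt b B (X.step b s) fun o t =>
      ∃ v', I b (q, eta, eps) o.1 v' ∧ v'.live = v.live ∧ v'.ed = v.ed ∧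
        v'.used ≤ v.used + eta / eps + 1 ∧ t + v'.pot ≤ v.pot + g b * (eta / eps + 1) ∧
        v'.mass ≤ v.mass + eta ∧
        (o.2 = false → (∀ r ∈ v.live, v'.X r = v.X r) ∧
          ∃ φ : ℕ → ℝ, ∀ r ∈ v.live, Cons v.ed ((g b : ℝ) / q) φ r) ∧
        (o.2 = true →
          (∀ π : ℕ → ℤ, ∑ r ∈ v.live, (v'.X r - v.X r) * (π (v.ed r).b - π (v.ed r).a) = 0) ∧
          ∑ r ∈ v.live, (v'.X r - v.X r).natAbs * (v.ed r).len ≤ eta ∧
          (eta : ℤ) ≤ 2 * q * -∑ r ∈ v.live, (v'.X r - v.X r) * (v.ed r).g)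

/-- The engine. -/
def MRC : Prop := ∃ (σ : Type) (_ : Rep σ) (X : Mrc σ) (c : ℕ) (g : ℕ → ℕ)
  (I : ℕ → ℕ × ℕ × ℕ → σ → View → Prop), MrcOK X c g I

end Vale.Agent.P305P
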